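import Crest.Agent.N250.Vr.Nc
import Crest.Agent.N250.Av.CoreX
import Crest.Agent.N250.Rm.Sm
import Crest.Agent.N250.Se.Dic
import Crest.Agent.N250.R0.Leaf
import Crest.Agent.N250.Wt.All

/-!
# Row 250 (helper82): first variation of the core action and of the pairings on `R0/Core`
-/

set_option autoImplicit false
open MeasureTheory Set Filter Topology Metric

noncomputable section

namespace Crest.Agent.N250

open Crest.Agent.N222 Gc Cj Vr WS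

namespace WS.Geo

variable {X : Type} [TopologicalSpace X] [MeasurableSpace X] {G : Geo X} {K : Set X}

theorem ρ_le_w (p : X) : G.ρ.1 p ≤ 1 + G.S.x2.1 p := (G.ρ_le_rt p).trans (G.rt_le p)

theorem pk_bdd {f : G.SmC} {C : ℝ} (h : ∀ p ∈ K, ‖f.1 p‖ ≤ C) : G.PK K f :=
  ⟨C, 0, fun p hp => by simpa using h p hp⟩

theorem pk_ρ {f : G.SmC} {C : ℝ} (h : ∀ p ∈ K, ‖f.1 p‖ ≤ C * G.ρ.1 p) : G.PK K f :=
  ⟨|C|, 1, fun p hp => (h p hp).trans (by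
    rw [pow_one]
    exact mul_le_mul (le_abs_self _) (ρ_le_w p) (G.ρ_pos p).le (abs_nonneg _))⟩

theorem PK.add {f g : G.SmC} (hf : G.PK K f) (hg : G.PK K g) : G.PK K (f + g) :=
  mem_pkR.1 (add_mem (mem_pkR.2 hf) (mem_pkR.2 hg))

theorem PK.mul {f g : G.SmC} (hf : G.PK K f) (hg : G.PK K g) : G.PK K (f * g) :=
  mem_pkR.1 (mul_mem (mem_pkR.2 hf) (mem_pkR.2 hg))

theorem Sy.pk {k : ℤ} {f : G.R} (h : G.Sy k f) : G.PK K (G.oR f) := h.pg.oR.pk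

theorem Sy.pk_D {k : ℤ} {f : G.R} (h : G.Sy k f) (a : Fin 3) : G.PK K (G.SC.D a (G.oR f)) := by
  rw [G.D_oR]; exact (h.D a).pk

theorem pk_DDx (a b c : Fin 3) : G.PK K (G.SC.D a (G.SC.D b (G.SC.x c))) := by
  have e : G.S.D b (G.S.x c) = G.S.P b c := rfl
  rw [G.SC_x, G.D_oR, e]
  exact (G.sy_P b c).pk_D a

/-- tameness from closeness to `x` -/
theorem tmk_of {Y : Fin 3 → G.SmC} (h : ∀ p ∈ K, G.Cl Y p) {C : ℝ}
    (h2 : ∀ p ∈ K, ∀ a b c, ‖(G.SC.D a (G.SC.D b (Y c - G.SC.x c))).1 p‖ ≤ C) : G.TmK K Y where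
  gau := ⟨4 / 5, 1, by norm_num, fun p hp => (h p hp).re_ge⟩
  low := ⟨1 / 2, by norm_num, fun p hp => (h p hp).GX_ge⟩
  p0 c := ⟨2, 1, fun p hp => ((h p hp).Y_le c).trans (by
    rw [pow_one]; exact mul_le_mul_of_nonneg_left (G.rt_le p) zero_le_two)⟩
  p1 a c := pk_bdd fun p hp => (h p hp).J_le a c
  p2 a b c := by
    have e : Y c = (Y c - G.SC.x c) + G.SC.x c := (sub_add_cancel _ _).symm
    rw [e, G.hypC.add, G.hypC.add]
    exact (pk_bdd fun p hp => h2 p hp a b c).add (pk_DDx a b c)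

variable {V : Type} [NormedAddCommGroup V] [NormedSpace ℂ V] {U : Set V} {C : ℝ}
  {g : V → G.SmC} {Y : V → Fin 3 → G.SmC}

theorem CFam.nfam (h : G.CFam K U C g Y) (hK : IsClosed K) : G.NFam K U g Y where
  cl := hK
  op := h.op
  supp z hz := closure_minimal (fun p hp => by_contra fun k => hp (h.off z hz p k)) hK
  hg := h.hg
  hY := h.hY
  hJ := h.hJ
  bd := ⟨|C| + 3, 1, fun z hz p hp => by
    have e := one_le_w (G := G) p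
    have e1 := G.rt_le p
    have e2 := G.one_le_rt p
    have e3 := abs_nonneg C
    rw [pow_one]
    refine ⟨(h.bd z hz p hp).trans ?_, fun a c => ((h.cl z hz p hp).J_le a c).trans ?_⟩
    · nlinarith [le_abs_self C]
    · nlinarith⟩
  gau := ⟨4 / 5, 1, by norm_num, fun z hz p hp => (h.cl z hz p hp).re_ge⟩
  slit z hz p hp := (h.cl z hz p hp).slit

theorem CFam.hfam (h : G.CFam K U C g Y) {K' : Set X} (hK : IsCompact K') (hs : K' ⊆ K)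
    (hg : ∀ z ∈ U, tsupport (g z).1 ⊆ K') : G.HFam K' U g Y where
  cpt := hK
  op := h.op
  supp := hg
  hg p hp := h.hg p (hs hp)
  hY p hp := h.hY p (hs hp)
  hJ p hp := h.hJ p (hs hp)
  bd := by
    obtain ⟨B, hB⟩ := hK.exists_bound_of_continuousOn (G.cont G.S.x2).continuousOn
    refine ⟨(|C| + 3) * (1 + B), fun z hz p hp => ?_⟩
    have e := (le_abs_self _).trans (hB p hp)
    have e0 := G.x2_nonneg p
    have e1 := G.rt_le p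
    have e2 := G.one_le_rt p
    have e3 := abs_nonneg C
    refine ⟨(h.bd z hz p (hs hp)).trans ?_, fun c => ((h.cl z hz p (hs hp)).Y_le c).trans ?_,
      fun a c => ((h.cl z hz p (hs hp)).J_le a c).trans ?_⟩
    · nlinarith [le_abs_self C]
    · nlinarith
    · nlinarith
  slit z hz p hp := (h.cl z hz p (hs hp)).slit

end WS.Geo

namespace Nq.Dt

variable {X : Type} [TopologicalSpace X] [MeasurableSpace X] {G : Geo X} {J κ : Type}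
  [Fintype J] (D : Dt G J κ)

/-- the variation of `Xh u T` in the direction `(u', T')` -/
def dX (u : G.SmC) (T : Mt J) (u' : G.SmC) (T' : Mt J) (c : Fin 3) : G.SmC :=
  D.mv T' G.S.x c + (u' * D.VV T c + u * D.mv T' D.Z c)

section Hd

variable {V : Type} [NormedAddCommGroup V] [NormedSpace ℂ V] {u : V → G.SmC} {T : V → Mt J}
  {z : V} {p : X} {w : V → G.SmC} {M : V → Mt J}

theorem hd_sum (hT : DifferentiableAt ℂ T z) (f : J → Fin 3 → ℂ) (c : Fin 3) :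
    HD ℂ (fun z => ∑ j, ∑ d, T z j c d * f j d) z
      fun v => ∑ j, ∑ d, fderiv ℂ T z v j c d * f j d := by
  let L : Mt J →L[ℂ] ℂ := ∑ j, ∑ d, f j d • (ContinuousLinearMap.proj d).comp
    ((ContinuousLinearMap.proj c).comp
      (ContinuousLinearMap.proj j : Mt J →L[ℂ] Fin 3 → Fin 3 → ℂ))
  have e : ∀ A : Mt J, L A = ∑ j, ∑ d, A j c d * f j d := fun A => by
    simp [L, mul_comm]
  simp only [← e]
  exact HD.of (L.hasFDerivAt.comp z hT.hasFDerivAt)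

variable [Fintype κ]

theorem hd_Xh (hT : DifferentiableAt ℂ T z) (hu : HD ℂ (fun z => (u z).1 p) z fun v => (w v).1 p)
    (c : Fin 3) : HD ℂ (fun z => (D.Xh (u z) (T z) c).1 p) z
      fun v => (D.dX (u z) (T z) (w v) (fderiv ℂ T z v) c).1 p := by
  simp only [Xh_val, mv_val]
  refine ((HD.const _).add ((hd_sum hT _ c).add
    (hu.mul ((HD.const _).add (hd_sum hT _ c))))).congr fun v => ?_
  change _ = (D.mv _ _ c).1 p + ((w v).1 p * (((D.Z c).1 p : ℂ) + (D.mv _ _ c).1 p) +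
    (u z).1 p * (D.mv _ _ c).1 p)
  simp only [mv_val]
  ring

theorem hd_D_Xh (hT : DifferentiableAt ℂ T z)
    (hu : HD ℂ (fun z => (u z).1 p) z fun v => (w v).1 p) (a : Fin 3)
    (hD : HD ℂ (fun z => (G.SC.D a (u z)).1 p) z fun v => (G.SC.D a (w v)).1 p) (c : Fin 3) :
    HD ℂ (fun z => (G.SC.D a (D.Xh (u z) (T z) c)).1 p) z
      fun v => (G.SC.D a (D.dX (u z) (T z) (w v) (fderiv ℂ T z v) c)).1 p := by
  simp only [D_Xh_val, mv_val, D_mv_val]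
  refine ((HD.const _).add ((hd_sum hT _ c).add ((hu.mul ((HD.const _).add (hd_sum hT _ c))).add
    (hD.mul ((HD.const _).add (hd_sum hT _ c)))))).congr fun v => ?_
  simp only [dX, VV, G.hypC.add, G.hypC.mul, G.D_oR]
  change _ = (G.SC.D a (D.mv _ _ c)).1 p + (((w v).1 p * (((G.S.D a (D.Z c)).1 p : ℂ) +
    (G.SC.D a (D.mv _ _ c)).1 p) + (G.SC.D a (w v)).1 p * (((D.Z c).1 p : ℂ) + (D.mv _ _ c).1 p))
    + ((u z).1 p * (G.SC.D a (D.mv _ _ c)).1 p + (G.SC.D a (u z)).1 p * (D.mv _ _ c).1 p))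
  simp only [mv_val, D_mv_val]
  ring

end Hd

variable {D}

theorem Good.pk_mv (h : D.Good) (T : Mt J) (w : Fin 3 → G.R) (c : Fin 3) :
    G.PK {p | G.ζ.1 p = 1} (D.mv T w c) := by
  obtain ⟨C, -, hC⟩ := Rm.bd_mv h w
  exact Geo.pk_bdd fun p hp => (hC T p c hp).h0

theorem Good.pk_dX (h : D.Good) {u u' : G.SmC} (hu : G.PK {p | G.ζ.1 p = 1} u)
    (hu' : G.PK {p | G.ζ.1 p = 1} u') (T T' : Mt J) (c : Fin 3) :
    G.PK {p | G.ζ.1 p = 1} (D.dX u T u' T' c) :=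
  (h.pk_mv _ _ c).add ((hu'.mul ((h.symZ c).pk.add (h.pk_mv _ _ c))).add (hu.mul (h.pk_mv _ _ c)))

end Nq.Dt

namespace R0

open Wr

variable {S : Mv} {T : St S}

theorem St.AC_eq (Y : Fin 3 → T.G.SmC) : T.AC Y = T.G.actC (T.G.oR T.ζA) Y := rfl

theorem St.IP_eq (φ : T.G.R) (w : T.G.SmC) (Y : Fin 3 → T.G.SmC) :
    T.IP φ w Y = T.G.actC (T.G.oR φ * w) Y := rfl

theorem St.diff_TT (T : St S) : Differentiable ℂ T.TT := by
  refine differentiable_pi.2 fun j => ?_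
  have h : Differentiable ℂ fun (β : T.Bt) (i : Fin 2) => β (j, i) :=
    differentiable_pi.2 fun i => differentiable_apply (j, i)
  have e : (fun β : T.Bt => T.TT β j) = Ro.TT (fQ (T.e.Q j)) ∘ fun β i => β (j, i) :=
    funext fun β => Tm_eq _ _
  rw [e]
  exact (Ro.diff_TT _).comp h

theorem St.TT_zero (T : St S) : T.TT 0 = 0 := funext fun j => Ro.TT_zero (fQ (T.e.Q j))

/-- the set where all jets are controlled -/
abbrev St.Kz (T : St S) : Set (S.sl 0) := {p | T.G.ζ.1 p = 1}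

theorem St.closed_Kz (T : St S) : IsClosed T.Kz :=
  isClosed_eq (Geo.cont T.G.ζ) continuous_const

theorem St.ζA_Kz (T : St S) {p : S.sl 0} (hp : T.ζA.1 p ≠ 0) : p ∈ T.Kz :=
  T.ζ_one_of_ne (by norm_num) (by norm_num) (by norm_num) hp

namespace Fa

variable (F : Fa T) {σ : Scale T.G}

theorem φ_Kz (k : F.I) : tsupport (F.φ k).1 ⊆ T.Kz := fun p hp => by
  rcases T.off_or_ψ (a := T.R + 1) (b := T.R - 2) (T.eR_lt' (by linarith)) (by linarith) p with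
    h | ⟨j, q, h1, rfl⟩
  · change T.G.ζ.1 p = 1
    rw [T.ζ_eq]; exact T.ze_off (by norm_num) h
  · exact absurd hp (F.ψ_notMem k h1)

/-- the projection to the variables of the Green operator -/
def pr (σ : Scale T.G) : F.Ξ σ →L[ℂ] σ.AA × (F.I → ℂ) :=
  (ContinuousLinearMap.fst ℂ _ _).prod
    ((ContinuousLinearMap.fst ℂ _ _).comp (ContinuousLinearMap.snd ℂ _ _))

theorem w_pr (ξ : F.Ξ σ) : F.w ξ = σ.wG F.φ (F.pr σ ξ) := rfl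

theorem diff_TT : Differentiable ℂ fun z : F.Ξ σ => T.TT z.2.2 :=
  T.diff_TT.comp (differentiable_snd.comp differentiable_snd)

/-- the variation of the rotations -/
def dT (ξ v : F.Ξ σ) : Nq.Mt (Fin T.p) := fderiv ℂ (fun z : F.Ξ σ => T.TT z.2.2) ξ v

/-- the variation of the surface -/
def dY (ξ v : F.Ξ σ) : Fin 3 → T.G.SmC := F.D.dX (F.w ξ) (T.TT ξ.2.2) (F.w v) (F.dT ξ v)

/-- off the rotation zone the variation is `w v • V` -/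
theorem dY_off (ξ v : F.Ξ σ) {p : S.sl 0} (hp : ∀ i, (T.χr i).1 p = 0) (c : Fin 3) :
    (F.dY ξ v c).1 p = (F.w v).1 p * (F.D.VV (T.TT ξ.2.2) c).1 p := by
  change (F.D.mv _ _ c).1 p + ((F.w v).1 p * _ + (F.w ξ).1 p * (F.D.mv _ T.Z c).1 p) = _
  rw [F.mv_zero _ _ c hp, F.mv_zero _ _ c hp, zero_add, mul_zero, add_zero]

theorem dY_core (ξ v : F.Ξ σ) {k : F.I} {p : S.sl 0} (hp : p ∈ tsupport (F.φ k).1) (c : Fin 3) :
    (F.dY ξ v c).1 p = (F.w v).1 p * (F.D.VV (T.TT ξ.2.2) c).1 p :=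
  F.dY_off ξ v (F.χr_zero hp) c

section Jets

variable (Jt : σ.Jets F.φ) {p : S.sl 0} (hp : p ∈ T.Kz) (ξ : F.Ξ σ)
include Jt hp

theorem hd_w : HD ℂ (fun z : F.Ξ σ => (F.w z).1 p) ξ fun v => (F.w v).1 p :=
  ⟨(Nq.Dt.hasF_w Jt (F.pr σ) hp ξ).differentiableAt, fun v => (Nq.Dt.fd_w Jt (F.pr σ) hp ξ v)⟩

theorem hd_Dw (a : Fin 3) : HD ℂ (fun z : F.Ξ σ => (T.G.SC.D a (F.w z)).1 p) ξ
    fun v => (T.G.SC.D a (F.w v)).1 p := by
  simp only [w_pr, Nq.Dt.Dw_val Jt _ hp]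
  exact HD.of ((σ.evL p).comp ((Jt.J1 a).comp (F.pr σ))).hasFDerivAt

theorem hd_Y (c : Fin 3) : HD ℂ (fun z : F.Ξ σ => (F.Y z c).1 p) ξ fun v => (F.dY ξ v c).1 p :=
  F.D.hd_Xh (F.diff_TT ξ) (F.hd_w Jt hp ξ) c

theorem hd_DY (a c : Fin 3) : HD ℂ (fun z : F.Ξ σ => (T.G.SC.D a (F.Y z c)).1 p) ξ
    fun v => (T.G.SC.D a (F.dY ξ v c)).1 p :=
  F.D.hd_D_Xh (F.diff_TT ξ) (F.hd_w Jt hp ξ) a (F.hd_Dw Jt hp ξ a) c

omit hp

theorem pk_w : T.G.PK T.Kz (F.w ξ) := by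
  obtain ⟨C, -, h⟩ := Rm.sz_wG Jt
  exact Geo.pk_ρ fun p hp => (h _ p hp).h0

theorem pk_dY (v : F.Ξ σ) (c : Fin 3) : T.G.PK T.Kz (F.dY ξ v c) :=
  F.good.pk_dX (F.pk_w Jt ξ) (F.pk_w Jt v) _ _ c

end Jets

theorem hd_curve {f f' : F.Ξ σ → ℂ} {ξ : ℂ → F.Ξ σ} {v : F.Ξ σ} {t : ℂ} (h : HD ℂ f (ξ t) f')
    (hξ : HasDerivAt ξ v t) : HasDerivAt (fun u => f (ξ u)) (f' v) t := by
  rw [← h.eq]; exact h.diff.hasFDerivAt.comp_hasDerivAt t hξ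

variable (σ) in
/-- the variational calculus of the core on the ball of radius `r` -/
structure Vc (r : ℝ) : Prop where
  r_pos : 0 < r
  fw : ∀ p ∈ T.Kz, ∀ ξ : F.Ξ σ, HD ℂ (fun z : F.Ξ σ => (F.w z).1 p) ξ fun v => (F.w v).1 p
  fY : ∀ p ∈ T.Kz, ∀ (ξ : F.Ξ σ) c,
    HD ℂ (fun z : F.Ξ σ => (F.Y z c).1 p) ξ fun v => (F.dY ξ v c).1 p
  fJ : ∀ p ∈ T.Kz, ∀ (ξ : F.Ξ σ) a c, HD ℂ (fun z : F.Ξ σ => (T.G.SC.D a (F.Y z c)).1 p) ξ
    fun v => (T.G.SC.D a (F.dY ξ v c)).1 p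
  cl : ∀ ξ : F.Ξ σ, ‖ξ‖ < r → ∀ p ∈ T.Kz, T.G.Cl (F.Y ξ) p
  nf : T.G.NFam T.Kz (ball (0 : F.Ξ σ) r) (fun _ => T.G.oR T.ζA) F.Y
  hf : ∀ k, T.G.HFam (tsupport (F.φ k).1) (ball (0 : F.Ξ σ) r)
    (fun z => T.G.oR (F.φ k) * F.w z) F.Y
  tm : ∀ ξ : F.Ξ σ, ‖ξ‖ < r → T.G.TmK T.Kz (F.Y ξ)
  pw : ∀ ξ : F.Ξ σ, T.G.PK T.Kz (F.w ξ)
  pY : ∀ (ξ v : F.Ξ σ) c, T.G.PK T.Kz (F.dY ξ v c)

theorem vc_of (Jt : σ.Jets F.φ) : ∃ r, F.Vc σ r := by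
  have h0 : (fun z : F.Ξ σ => T.TT z.2.2) 0 = 0 := T.TT_zero
  obtain ⟨r, r0, hr⟩ := F.good.cfam Jt (F.pr σ) (T := fun z => T.TT z.2.2)
    (Eventually.of_forall F.diff_TT) h0
  obtain ⟨C, C0, hC⟩ := Rm.sz_wG Jt
  obtain ⟨C', -, hC'⟩ := Rm.sz_Xh F.good
  have k : ∀ᶠ z : F.Ξ σ in 𝓝 0, ‖T.TT z.2.2‖ < 1 ∧ C * ‖F.pr σ z‖ < 1 :=
    ((F.diff_TT (σ := σ)).continuous.continuousAt.norm.eventually (gt_mem_nhds (by
      simp only [Prod.snd_zero, T.TT_zero, norm_zero, zero_lt_one]))).and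
    ((continuous_const.mul (F.pr σ).continuous.norm).continuousAt.eventually (gt_mem_nhds (by
      simp)))
  obtain ⟨s, s0, hs⟩ := Metric.eventually_nhds_iff_ball.1 k
  have sub : ball (0 : F.Ξ σ) (min r s) ⊆ ball 0 r := ball_subset_ball (min_le_left _ _)
  have mono : ∀ {B : ℝ} {g : F.Ξ σ → T.G.SmC}, T.G.CFam T.Kz (ball 0 r) B g F.Y →
      T.G.CFam T.Kz (ball 0 (min r s)) B g F.Y := fun h =>
    ⟨isOpen_ball, fun z hz => h.off z (sub hz), fun z hz => h.bd z (sub hz),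
      fun z hz => h.cl z (sub hz), fun p hp => (h.hg p hp).mono sub,
      fun p hp c => (h.hY p hp c).mono sub, fun p hp a c => (h.hJ p hp a c).mono sub⟩
  have hA := mono (hr T.ζA 1 (fun p => T.ζA_Kz) fun p => by
    rw [abs_of_nonneg (T.ze_nonneg _ _ p)]; exact T.ze_le_one _ _ p).1
  have cl : ∀ ξ : F.Ξ σ, ‖ξ‖ < min r s → ∀ p ∈ T.Kz, T.G.Cl (F.Y ξ) p := fun ξ h =>
    hA.cl ξ (mem_ball_zero_iff.2 h)
  refine ⟨min r s, lt_min r0 s0, fun p hp ξ => F.hd_w Jt hp ξ, fun p hp ξ => F.hd_Y Jt hp ξ,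
    fun p hp ξ => F.hd_DY Jt hp ξ, cl, hA.nfam T.closed_Kz, fun k => ?_, fun ξ h => ?_,
    F.pk_w Jt, F.pk_dY Jt⟩
  · obtain ⟨B, hB⟩ := (Geo.cont (F.φ k)).bounded_above_of_compact_support (F.cs_φ k)
    exact (mono (hr (F.φ k) B (fun p hp => F.φ_Kz k (subset_tsupport _ hp)) hB).2).hfam
      (F.cs_φ k) (F.φ_Kz k) fun z _ => closure_mono fun p hp h0 => hp (by
        change ((F.φ k).1 p : ℂ) * _ = 0
        rw [h0]; simp)
  · obtain ⟨a1, a2⟩ := hs ξ (mem_ball_zero_iff.2 (h.trans_le (min_le_right _ _)))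
    exact Geo.tmk_of (cl ξ h) (C := C' * 1) fun p hp a b c =>
      (hC' _ _ 1 p hp le_rfl a1.le ((hC _ p hp).mono a2.le) c).h2 a b

theorem vc : Sg fun σ => ∃ r, F.Vc σ r :=
  (F.grn.nonempty_jets T.G.mainS).mono fun _ h σ e => (h σ e).elim fun Jt => F.vc_of Jt

namespace Vc

variable {F} {r : ℝ} (h : F.Vc σ r) {ξ : F.Ξ σ}
include h

theorem cw {p : S.sl 0} (hp : p ∈ T.Kz) {ξ : ℂ → F.Ξ σ} {v : F.Ξ σ} {t : ℂ}
    (hξ : HasDerivAt ξ v t) : HasDerivAt (fun u => (F.w (ξ u)).1 p) ((F.w v).1 p) t :=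
  F.hd_curve (h.fw p hp (ξ t)) hξ

theorem cY {p : S.sl 0} (hp : p ∈ T.Kz) {ξ : ℂ → F.Ξ σ} {v : F.Ξ σ} {t : ℂ}
    (hξ : HasDerivAt ξ v t) (c : Fin 3) :
    HasDerivAt (fun u => (F.Y (ξ u) c).1 p) ((F.dY (ξ t) v c).1 p) t :=
  F.hd_curve (h.fY p hp (ξ t) c) hξ

theorem dAC (hξ : ‖ξ‖ < r) : DifferentiableAt ℂ (fun z : F.Ξ σ => T.AC (F.Y z)) ξ :=
  h.nf.diffOn.differentiableAt (isOpen_ball.mem_nhds (mem_ball_zero_iff.2 hξ))

theorem bAC : ∃ C : ℝ, ∀ ξ : F.Ξ σ, ‖ξ‖ < r → ‖T.AC (F.Y ξ)‖ ≤ C :=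
  h.nf.norm_le.imp fun _ k ξ hξ => k ξ (mem_ball_zero_iff.2 hξ)

theorem iAC (hξ : ‖ξ‖ < r) : Integrable (T.G.lagC (T.G.oR T.ζA) (F.Y ξ)) T.G.M.mu :=
  h.nf.intg (mem_ball_zero_iff.2 hξ)

theorem holAC : Gl.HolAt fun z : F.Ξ σ => T.AC (F.Y z) :=
  Eventually.mono (ball_mem_nhds (0 : F.Ξ σ) h.r_pos) fun _ hz => h.dAC (mem_ball_zero_iff.1 hz)

theorem intg_bulk (hξ : ‖ξ‖ < r) (v : F.Ξ σ) :
    Integrable (T.G.bulkC (T.G.oR T.ζA) (F.Y ξ) (F.dY ξ v)) T.G.M.mu :=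
  (h.tm ξ hξ).intg_bulkC (fun _ hp => h.nf.zero (mem_ball_zero_iff.2 hξ) hp)
    (h.nf.pk_g (mem_ball_zero_iff.2 hξ)) (h.pY ξ v)

/-- **first variation of the core action** -/
theorem fAC (hξ : ‖ξ‖ < r) (v : F.Ξ σ) : fderiv ℂ (fun z : F.Ξ σ => T.AC (F.Y z)) ξ v =
    ∫ p, T.G.bulkC (T.G.oR T.ζA) (F.Y ξ) (F.dY ξ v) p ∂T.G.M.mu -
      ∫ p, T.G.fluxC (T.G.oR T.ζA) (F.Y ξ) (F.dY ξ v) p ∂T.G.M.mu := by
  have e := h.nf.fderiv_eq (mem_ball_zero_iff.2 hξ) v (h.tm ξ hξ)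
    ((T.sy_ze (by norm_num) (by norm_num)).pk_D) (g' := 0) (fun _ _ => rfl)
    (Geo.pk_bdd (C := 0) fun _ _ => norm_zero.le) (h.pY ξ v) (fun p _ => by simp)
    (fun p hp c => (h.fY p hp ξ c).eq v) fun p hp a c => (h.fJ p hp ξ a c).eq v
  have e0 : T.G.actC 0 (F.Y ξ) = 0 := by simp [Geo.actC, Geo.lagC]
  rw [e0, zero_add] at e
  exact e

/-- along a curve -/
theorem cAC {ξ : ℂ → F.Ξ σ} {v : F.Ξ σ} {t : ℂ} (hξ : HasDerivAt ξ v t) (ht : ‖ξ t‖ < r) :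
    HasDerivAt (fun u => T.AC (F.Y (ξ u)))
      (∫ p, T.G.bulkC (T.G.oR T.ζA) (F.Y (ξ t)) (F.dY (ξ t) v) p ∂T.G.M.mu -
        ∫ p, T.G.fluxC (T.G.oR T.ζA) (F.Y (ξ t)) (F.dY (ξ t) v) p ∂T.G.M.mu) t := by
  rw [← h.fAC ht]; exact (h.dAC ht).hasFDerivAt.comp_hasDerivAt t hξ

theorem dII (hξ : ‖ξ‖ < r) (k : F.I) : DifferentiableAt ℂ (fun z : F.Ξ σ => F.II z k) ξ :=
  (h.hf k).diffOn.differentiableAt (isOpen_ball.mem_nhds (mem_ball_zero_iff.2 hξ))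

theorem dII' (hξ : ‖ξ‖ < r) : DifferentiableAt ℂ (F.II (σ := σ)) ξ :=
  differentiableAt_pi.2 (h.dII hξ)

theorem fII_apply (hξ : ‖ξ‖ < r) (v : F.Ξ σ) (k : F.I) :
    fderiv ℂ F.II ξ v k = fderiv ℂ (fun z : F.Ξ σ => F.II z k) ξ v := by
  rw [show F.II (σ := σ) = fun z k => F.II z k from rfl, fderiv_pi (h.dII hξ)]
  rfl

end Vc

end Fa

end R0

end Crest.Agent.N250

end
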