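import Crest.Agent.N250.Fv.BulkC
import Crest.Agent.N250.Fv.Tqc

/-!
# Row 250 (helper82): the leaf `VarL`
-/

set_option autoImplicit false
open Filter Topology

namespace Crest.Agent.N250.R0

open WS

theorem varD_of {S : Mv} {T : St S} (hG : T.Good) (F : Fa T) {σ : Scale T.G} {r0 : ℝ}
    (h : F.Vc σ r0) : F.VarD σ := by
  refine ⟨min r0 1, lt_min h.r_pos one_pos, fun N ξ r X1 θ g => ?_⟩
  obtain ⟨CT, hCT⟩ := Vc.tq_bd g hG (min_le_right _ _)
  refine ⟨CT, fun X hX w hw δ v => ?_⟩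
  have hq := Vc.mem_Om g hX hw
  have hs : ‖ξ (X, w)‖ < r0 := (g.small _ hq).1.trans_le (min_le_left _ _)
  have d := Vc.d_ξ g hq
  have e := Vc.fd_A g hq hG (h.dAC hs) (δ, v) (V := F.dY (ξ (X, w)) (fderiv ℂ ξ (X, w) (δ, v)))
    (fun p hp c => by
      have := h.cY hp (Vc.hd_line d (δ, v)) c
      simpa only [zero_smul, add_zero] using this)
    (h.core hs (g.mat _ hq).eq _)
  refine ⟨_, fun j => (norm_neg _).trans_le (hCT X hX w hw j _), e.trans ?_⟩
  rw [fderiv_fun_comp _ (h.dII' hs) d]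
  rfl

theorem varL' : VarL := fun _ _ hG F => F.vc.mono fun _ ⟨_, h⟩ _ => varD_of hG F h

end Crest.Agent.N250.R0
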