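import Crest.Agent.N250.Gc.Var2
import Crest.Agent.N250.Sw.Pg

/-!
# Row 250 (helper82): the first variation of the weighted Gaussian area, non-compact weights
-/

set_option autoImplicit false
open MeasureTheory Set Filter Topology

noncomputable section

namespace Crest.Agent.N250

open Crest.Agent.N222 Gc Cj

namespace Vr

section Poly

variable {R : Type} [CommRing R] {A : Subring R} {n x u v : Fin 3 → R} {J : Fin 3 → Fin 3 → R}
  {K : Fin 3 → Fin 3 → Fin 3 → R}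

theorem mem_dot (hu : ∀ c, u c ∈ A) (hv : ∀ c, v c ∈ A) : dot u v ∈ A :=
  sum_mem fun c _ => mul_mem (hu c) (hv c)

theorem mem_Nv (hn : ∀ a, n a ∈ A) (hJ : ∀ a c, J a c ∈ A) (c : Fin 3) : Nv n J c ∈ A :=
  sum_mem fun a _ => mul_mem (hn a)
    (sub_mem (mul_mem (hJ _ _) (hJ _ _)) (mul_mem (hJ _ _) (hJ _ _)))

theorem mem_adj (hJ : ∀ a c, J a c ∈ A) (a b : Fin 3) : adj J a b ∈ A := by
  refine sub_mem ?_ (mem_dot (hJ a) (hJ b))
  split_ifs
  · exact sum_mem fun e _ => mem_dot (hJ e) (hJ e)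
  · exact zero_mem _

theorem mem_Wv (hJ : ∀ a c, J a c ∈ A) (a c : Fin 3) : Wv J a c ∈ A :=
  sum_mem fun b _ => mul_mem (mem_adj hJ a b) (hJ b c)

theorem mem_G2 (hn : ∀ a, n a ∈ A) (hJ : ∀ a c, J a c ∈ A) : G2 n J ∈ A :=
  mem_dot (mem_Nv hn hJ) (mem_Nv hn hJ)

theorem mem_HP (hn : ∀ a, n a ∈ A) (hJ : ∀ a c, J a c ∈ A) (hK : ∀ a b c, K a b c ∈ A) :
    HP n J K ∈ A :=
  neg_mem (sum_mem fun a _ => sum_mem fun b _ =>
    mul_mem (mem_adj hJ a b) (mem_dot (hK a b) (mem_Nv hn hJ)))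

theorem mem_EL (hn : ∀ a, n a ∈ A) (hx : ∀ a, x a ∈ A) (hJ : ∀ a c, J a c ∈ A)
    (hK : ∀ a b c, K a b c ∈ A) : Gc.EL n x J K ∈ A :=
  sub_mem (mul_mem (ofNat_mem A 2) (mem_HP hn hJ hK))
    (mul_mem (mem_dot hx (mem_Nv hn hJ)) (mem_G2 hn hJ))

end Poly

/-- functions bounded on `S` by a power of `1 + w` -/
def Pw {α : Type} (w : α → ℝ) (S : Set α) : Subring (α → ℂ) where
  carrier := {f | ∃ (C : ℝ) (b : ℕ), 0 ≤ C ∧ ∀ a ∈ S, ‖f a‖ ≤ C * (1 + |w a|) ^ b}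
  mul_mem' := by
    rintro f g ⟨C, b, h0, h⟩ ⟨C', b', h0', h'⟩
    refine ⟨C * C', b + b', by positivity, fun a ha => ?_⟩
    rw [Pi.mul_apply, norm_mul, pow_add, mul_mul_mul_comm]
    exact mul_le_mul (h a ha) (h' a ha) (norm_nonneg _) (by positivity)
  one_mem' := ⟨1, 0, zero_le_one, fun a _ => by simp⟩
  add_mem' := by
    rintro f g ⟨C, b, h0, h⟩ ⟨C', b', h0', h'⟩
    refine ⟨C + C', b + b', by positivity, fun a ha => (norm_add_le _ _).trans ?_⟩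
    have e : 1 ≤ 1 + |w a| := le_add_of_nonneg_right (abs_nonneg _)
    rw [add_mul]
    exact add_le_add ((h a ha).trans (mul_le_mul_of_nonneg_left
      (pow_le_pow_right₀ e (Nat.le_add_right _ _)) h0)) ((h' a ha).trans
      (mul_le_mul_of_nonneg_left (pow_le_pow_right₀ e (Nat.le_add_left _ _)) h0'))
  zero_mem' := ⟨0, 0, le_rfl, fun a _ => by simp⟩
  neg_mem' := by
    rintro f ⟨C, b, h0, h⟩
    exact ⟨C, b, h0, fun a ha => by rw [Pi.neg_apply, norm_neg]; exact h a ha⟩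

section Pw

variable {α : Type} {w : α → ℝ} {S : Set α} {f g : α → ℂ}

theorem pw_of {C : ℝ} {b : ℕ} (h : ∀ a ∈ S, ‖f a‖ ≤ C * (1 + |w a|) ^ b) : f ∈ Pw w S :=
  ⟨|C|, b, abs_nonneg _, fun a ha => (h a ha).trans
    (mul_le_mul_of_nonneg_right (le_abs_self _) (by positivity))⟩

theorem pw_le (hg : g ∈ Pw w S) (h : ∀ a ∈ S, ‖f a‖ ≤ ‖g a‖) : f ∈ Pw w S := by
  obtain ⟨C, b, h0, h1⟩ := hg
  exact ⟨C, b, h0, fun a ha => (h a ha).trans (h1 a ha)⟩

theorem pw_bdd {C : ℝ} (h : ∀ a ∈ S, ‖f a‖ ≤ C) : f ∈ Pw w S :=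
  pw_of (C := C) (b := 0) fun a ha => by simpa using h a ha

theorem norm_csqrt (z : ℂ) : ‖Complex.sqrt z‖ = √‖z‖ := by
  rw [← Real.sqrt_sq (norm_nonneg (Complex.sqrt z)), ← norm_pow, Act.sqrt_sq']

theorem pw_sqrt (hf : f ∈ Pw w S) : (fun a => Complex.sqrt (f a)) ∈ Pw w S := by
  obtain ⟨C, b, h0, h1⟩ := hf
  refine ⟨1 + C, b, by positivity, fun a ha => ?_⟩
  have e : 1 ≤ (1 + |w a|) ^ b := one_le_pow₀ (le_add_of_nonneg_right (abs_nonneg _))
  have := h1 a ha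
  rw [norm_csqrt, add_mul, Real.sqrt_le_iff]
  refine ⟨by positivity, ?_⟩
  nlinarith [norm_nonneg (f a), mul_nonneg h0 (zero_le_one.trans e)]

theorem pw_isqrt {c : ℝ} (hc : 0 < c) (h : ∀ a ∈ S, c ≤ ‖f a‖) :
    (fun a => (Complex.sqrt (f a))⁻¹) ∈ Pw w S :=
  pw_bdd (C := (√c)⁻¹) fun a ha => by
    rw [norm_inv, norm_csqrt]
    exact inv_anti₀ (Real.sqrt_pos.2 hc) (Real.sqrt_le_sqrt (h a ha))

end Pw

end Vr

open Vr

namespace WS.Geo

variable {X : Type} [TopologicalSpace X] [MeasurableSpace X] (G : Geo X)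

/-- polynomial growth on `K` -/
def PK (K : Set X) (f : G.SmC) : Prop :=
  ∃ (C : ℝ) (b : ℕ), ∀ p ∈ K, ‖f.1 p‖ ≤ C * (1 + G.S.x2.1 p) ^ b

/-- Gaussian decay of `exp (-⟨Y, Y⟩ / 4)` on `K` -/
def GK (K : Set X) (Y : Fin 3 → G.SmC) : Prop :=
  ∃ δ C : ℝ, 0 < δ ∧ ∀ p ∈ K, δ * G.S.x2.1 p - C ≤ ((dot Y Y).1 p).re

variable {G} {K : Set X}

theorem pk_iff {f : G.SmC} : G.PK K f ↔ f.1 ∈ Pw G.S.x2.1 K := by
  constructor
  · rintro ⟨C, b, h⟩
    exact pw_of (C := C) (b := b) fun p hp => by rw [abs_of_nonneg (G.x2_nonneg p)]; exact h p hp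
  · rintro ⟨C, b, -, h⟩
    exact ⟨C, b, fun p hp => by rw [← abs_of_nonneg (G.x2_nonneg p)]; exact h p hp⟩

theorem PG.pk {f : G.SmC} (h : G.PG f.1) : G.PK K f := by
  obtain ⟨C, b, -, h⟩ := h
  exact ⟨C, b, fun p _ => h p⟩

theorem pk_cpt (hK : IsCompact K) (f : G.SmC) : G.PK K f := by
  obtain ⟨C, hC⟩ := hK.exists_bound_of_continuousOn (G.contC f).continuousOn
  exact ⟨C, 0, fun p hp => by simpa using hC p hp⟩

variable (G K) in
/-- the ring of smooth functions of polynomial growth on `K` -/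
def pkR : Subring G.SmC := (Pw G.S.x2.1 K).comap G.SmC.val.toRingHom

theorem mem_pkR {f : G.SmC} : f ∈ G.pkR K ↔ G.PK K f := pk_iff.symm

theorem norm_nC (p : X) (c : Fin 3) : ‖Cj.nC G p c‖ ≤ 1 := by
  have e := nn (G := G) p
  have := Finset.single_le_sum (f := fun a => (G.n a).1 p * (G.n a).1 p)
    (fun a _ => mul_self_nonneg _) (Finset.mem_univ c)
  rw [Cj.nC, Complex.norm_real, Real.norm_eq_abs, ← sq_le_one_iff_abs_le_one, pow_two]
  linarith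

theorem n_mem (a : Fin 3) : G.SC.n a ∈ G.pkR K := pw_bdd (C := 1) fun p _ => norm_nC p a

theorem norm_eX (Y : Fin 3 → G.SmC) (p : X) : ‖G.eX Y p‖ = Real.exp (-((dot Y Y).1 p).re / 4) := by
  rw [Complex.norm_exp]; congr 1; simp

/-- a Gaussian beats every polynomial -/
theorem gau_le {δ : ℝ} (hδ : 0 < δ) (C₀ C : ℝ) (b : ℕ) (hC : 0 ≤ C) : ∃ B : ℝ, ∀ t s : ℝ, 0 ≤ t →
    δ * t - C₀ ≤ s → Real.exp (-s / 4) * (C * (1 + t) ^ b) ≤ B * Real.exp (-(δ / 8 * t)) := by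
  obtain ⟨C', h0, h⟩ := pow_le_exp b (δ := δ / 8) (by positivity)
  refine ⟨Real.exp (C₀ / 4) * C * C', fun t s ht hs => ?_⟩
  calc _ ≤ Real.exp (C₀ / 4 + -(δ / 8 * t) + -(δ / 8 * t)) * (C * (C' * Real.exp (δ / 8 * t))) :=
        mul_le_mul (Real.exp_le_exp.2 (by linarith))
          (mul_le_mul_of_nonneg_left (h t ht) hC) (by positivity) (by positivity)
    _ = _ := by
        rw [Real.exp_add, Real.exp_add, Real.exp_neg]
        field_simp

/-- derivative of the Lagrangian at one point -/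
theorem hd_lag {V : Type} [NormedAddCommGroup V] [NormedSpace ℂ V] {g : V → G.SmC}
    {Y : V → Fin 3 → G.SmC} {z : V} {p : X}
    (hg : DifferentiableAt ℂ (fun z => (g z).1 p) z)
    (hY : ∀ c, DifferentiableAt ℂ (fun z => (Y z c).1 p) z)
    (hJ : ∀ a c, DifferentiableAt ℂ (fun z => (G.SC.D a (Y z c)).1 p) z)
    (s : (G.SC.GX (Y z)).1 p ∈ Complex.slitPlane) :
    HD ℂ (fun v => G.lagC (g v) (Y v) p) z fun w =>
    G.dlagC (g z) (Y z) (fderiv ℂ (fun v => (g v).1 p) z w)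
      (fun c => fderiv ℂ (fun v => (Y v c).1 p) z w)
      (fun a c => fderiv ℂ (fun v => (G.SC.D a (Y v c)).1 p) z w) p := by
  have d1 := HD.of_diff hg
  have d2 := fun c => HD.of_diff (hY c)
  have d3 := fun a c => HD.of_diff (hJ a c)
  have d4 := (HD.dot (u := fun v => val (Y v) p) (v := fun v => val (Y v) p) d2 d2).comp
    (ψ := fun w => Complex.exp (-w / 4)) ((hasDerivAt_neg _).div_const 4).cexp
  have fr : Gc.Fr (Cj.nC G p) (JC (Y z) p) := ⟨by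
    have := congrArg (fun r : ℝ => (r : ℂ)) (nn (G := G) p)
    simpa [Cj.nC] using this, fun c => n_D _ p⟩
  rw [GX_val] at s
  have d5 := (HD.G2 (J := fun v => JC (Y v) p) (Cj.nC G p) d3).comp (Act.sqrt_hd s)
  simp only [lagC, dlagC, dot_val, GX_val]
  refine (d1.mul (d4.mul d5)).congr fun w => ?_
  have e : ∀ a, val (G.SC.WX (Y z) a) p = Wv (JC (Y z) p) a :=
    fun a => funext fun c => WX_val _ _ a c
  simp only [fr.dG2_eq, e, dot_comm _ (val (Y z) p)]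
  ring

theorem D_chi_ev (a : Fin 3) (p : X) : ∀ᶠ k in atTop, (G.S.D a (G.chi k)).1 p = 0 := by
  have h : Tendsto (fun k : ℕ => 1 / ((k : ℝ) + 1) * G.S.x2.1 p) atTop (𝓝 (0 * _)) :=
    tendsto_one_div_add_atTop_nhds_zero_nat.mul_const _
  filter_upwards [h.eventually (gt_mem_nhds (show 0 * G.S.x2.1 p < 1 by simp))] with k hk
  have e0 : Hu.eta =ᶠ[𝓝 (1 / ((k : ℝ) + 1) * G.S.x2.1 p)] fun _ => 1 := by
    filter_upwards [Iio_mem_nhds hk] with v hv using Hu.eta_one (le_of_lt hv)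
  rw [D_chi, e0.deriv_eq]
  simp

variable [BorelSpace X]

theorem meas_eX (Y : Fin 3 → G.SmC) : Measurable (G.eX Y) := (G.contC (G.eY Y)).measurable

theorem meas_sq (Y : Fin 3 → G.SmC) : Measurable (G.sq Y) := (G.contC _).measurable.pow_const _

theorem meas_lagC (g : G.SmC) (Y : Fin 3 → G.SmC) : Measurable (G.lagC g Y) :=
  (G.contC _).measurable.mul ((meas_eX Y).mul (meas_sq Y))

/-- Gaussian times polynomial growth is integrable -/
theorem GK.intg {Y : Fin 3 → G.SmC} (h : G.GK K Y) {f F : X → ℂ} (hm : Measurable F)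
    (hf : F ∈ Pw G.S.x2.1 K) (h0 : ∀ p, p ∉ K → F p = 0) (e : ∀ p, f p = G.eX Y p * F p) :
    Integrable f G.M.mu := by
  obtain ⟨δ, C₀, hδ, h⟩ := h
  obtain ⟨C, b, hC, hf⟩ := hf
  obtain ⟨B, hB⟩ := gau_le hδ C₀ C b hC
  rw [funext e]
  refine Integrable.mono' ((G.intg_exp (δ := δ / 8) (by positivity)).const_mul |B|)
    ((meas_eX Y).mul hm).aestronglyMeasurable (Eventually.of_forall fun p => ?_)
  by_cases hp : p ∈ K
  · have := hf p hp
    rw [abs_of_nonneg (G.x2_nonneg p)] at this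
    rw [norm_mul, norm_eX]
    exact (mul_le_mul_of_nonneg_left this (by positivity)).trans
      ((hB _ _ (G.x2_nonneg p) (h p hp)).trans
        (mul_le_mul_of_nonneg_right (le_abs_self _) (by positivity)))
  · rw [h0 p hp, mul_zero, norm_zero]; positivity

theorem lim_mul {u : ℕ → G.R} {C l : ℝ} (hb : ∀ k p, |(u k).1 p| ≤ C)
    (hl : ∀ p, ∀ᶠ k in atTop, (u k).1 p = l) {f : X → ℂ} (hf : Integrable f G.M.mu) :
    (∀ k, Integrable (fun p => ((u k).1 p : ℂ) * f p) G.M.mu) ∧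
    Tendsto (fun k => ∫ p, ((u k).1 p : ℂ) * f p ∂G.M.mu) atTop (𝓝 (l * ∫ p, f p ∂G.M.mu)) := by
  have m : ∀ k, AEStronglyMeasurable (fun p => ((u k).1 p : ℂ) * f p) G.M.mu := fun k =>
    (G.contC (G.oR (u k))).aestronglyMeasurable.mul hf.1
  have b : ∀ k, ∀ᵐ p ∂G.M.mu, ‖((u k).1 p : ℂ) * f p‖ ≤ C * ‖f p‖ := fun k =>
    Eventually.of_forall fun p => by
      rw [norm_mul, Complex.norm_real]
      exact mul_le_mul_of_nonneg_right (hb k p) (norm_nonneg _)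
  refine ⟨fun k => (hf.norm.const_mul C).mono' (m k) (b k), ?_⟩
  rw [← integral_const_mul]
  refine tendsto_integral_of_dominated_convergence _ m (hf.norm.const_mul C) b
    (Eventually.of_forall fun p => tendsto_const_nhds.congr' ?_)
  filter_upwards [hl p] with k hk
  rw [hk]

variable (G) in
/-- the field whose divergence is integrated -/
def fldC (g : G.SmC) (Y V : Fin 3 → G.SmC) (a : Fin 3) (p : X) : ℂ :=
  G.eX Y p * (g.1 p * ((G.sq Y p)⁻¹ * dot (val (G.SC.WX Y a) p) (val V p)))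

variable [T2Space X] [SecondCountableTopology X]

/-- integration by parts without compact support -/
theorem int_dlagN (hK : IsClosed K) {g g' : G.SmC} {Y V : Fin 3 → G.SmC}
    (hg : tsupport g.1 ⊆ K) (hg' : ∀ p, p ∉ K → g'.1 p = 0)
    (hs : ∀ p ∈ K, (G.SC.GX Y).1 p ∈ Complex.slitPlane)
    (i1 : Integrable (fun p => G.dlagC g Y (g'.1 p) (val V p) (JC V p) p) G.M.mu)
    (i2 : Integrable (G.varC g Y g' V) G.M.mu) (i3 : ∀ a, Integrable (G.fldC g Y V a) G.M.mu) :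
    ∫ p, G.dlagC g Y (g'.1 p) (val V p) (JC V p) p ∂G.M.mu = ∫ p, G.varC g Y g' V p ∂G.M.mu := by
  obtain ⟨C, -, hC⟩ := G.D_chi_le
  have b1 : ∀ k p, |(G.chi k).1 p| ≤ 1 := fun k p => by
    rw [abs_of_nonneg (G.chi_nonneg k p)]; exact G.chi_le k p
  have b2 : ∀ a k p, |(G.S.D a (G.chi k)).1 p| ≤ |C| := fun a k p => (hC k a p).trans
    ((mul_le_mul (le_abs_self C) (G.ι_le p) (G.ι_pos p).le (abs_nonneg _)).trans (mul_one _).le)
  have l1 := lim_mul b1 G.chi_ev i1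
  have l2 := lim_mul b1 G.chi_ev i2
  have l3 := fun a => lim_mul (u := fun k => G.S.D a (G.chi k)) (b2 a) (D_chi_ev a) (i3 a)
  have l4 := l2.2.sub (tendsto_finsetSum Finset.univ fun a _ => (l3 a).2)
  simp only [Complex.ofReal_one, one_mul, Complex.ofReal_zero, zero_mul, Finset.sum_const_zero,
    sub_zero] at l1 l4
  refine tendsto_nhds_unique l1.2 (l4.congr fun k => ?_)
  have hc : ∀ (f : G.SmC) p, (G.oR (G.chi k) * f).1 p = ((G.chi k).1 p : ℂ) * f.1 p :=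
    fun _ _ => rfl
  have h := (G.int_dlag (K := K ∩ tsupport (G.chi k).1) ((G.chi_cs k).inter_left hK)
    (g := G.oR (G.chi k) * g) (g' := G.oR (G.chi k) * g') (Y := Y) (Y' := V)
    (subset_inter ((tsupport_mul_subset_right (f := (G.oR (G.chi k)).1) (g := g.1)).trans hg)
      (closure_mono fun p hp h0 => hp (by rw [hc, h0]; simp)))
    (fun p hp => by
      rw [hc]
      by_cases h1 : p ∈ K
      · rw [image_eq_zero_of_notMem_tsupport fun h2 => hp ⟨h1, h2⟩]; simp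
      · rw [hg' p h1, mul_zero]) fun p hp => hs p hp.1).2
  rw [← integral_finsetSum _ fun a _ => (l3 a).1 k, ← integral_sub (l2.1 k)
    (integrable_finsetSum _ fun a _ => (l3 a).1 k)]
  refine Eq.trans (integral_congr_ae (Eventually.of_forall fun p => ?_)) (h.symm.trans
    (integral_congr_ae (Eventually.of_forall fun p => ?_)))
  · have e : ∀ a, (G.SC.D a (G.oR (G.chi k) * g)).1 p = ((G.chi k).1 p : ℂ) * (G.SC.D a g).1 p
        + ((G.S.D a (G.chi k)).1 p : ℂ) * g.1 p := fun a => by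
      rw [G.hypC.mul, G.D_oR]; rfl
    simp only [varC, fldC, hc, e, Fin.sum_univ_three]
    ring
  · simp only [dlagC, hc]
    ring

/-- a complex surface that is tame on `K` -/
structure TmK (G : Geo X) (K : Set X) (Y : Fin 3 → G.SmC) : Prop where
  gau : G.GK K Y
  low : ∃ c : ℝ, 0 < c ∧ ∀ p ∈ K, c ≤ ‖(G.SC.GX Y).1 p‖
  p0 : ∀ c, G.PK K (Y c)
  p1 : ∀ a c, G.PK K (G.SC.D a (Y c))
  p2 : ∀ a b c, G.PK K (G.SC.D a (G.SC.D b (Y c)))

namespace TmK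

variable {Y V : Fin 3 → G.SmC} {g : G.SmC} (h : G.TmK K Y)
include h

omit [BorelSpace X] [T2Space X] [SecondCountableTopology X]

theorem J_mem (a c : Fin 3) : G.SC.Jm Y a c ∈ G.pkR K := mem_pkR.2 (h.p1 a c)

theorem isq : (fun p => (G.sq Y p)⁻¹) ∈ Pw G.S.x2.1 K := by
  obtain ⟨c, h0, h1⟩ := h.low
  exact pw_isqrt h0 h1

variable [BorelSpace X]

theorem intg_lagC (h0 : ∀ p, p ∉ K → g.1 p = 0) (hg : G.PK K g) :
    Integrable (G.lagC g Y) G.M.mu :=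
  h.gau.intg (F := fun p => g.1 p * G.sq Y p) ((G.contC g).measurable.mul (meas_sq Y))
    (mul_mem (pk_iff.1 hg) (pw_sqrt (mem_G2 (A := G.pkR K) n_mem h.J_mem)))
    (fun p hp => by rw [h0 p hp, zero_mul]) fun p => by rw [lagC]; ring

theorem intg_bulkC (h0 : ∀ p, p ∉ K → g.1 p = 0) (hg : G.PK K g) (hV : ∀ c, G.PK K (V c)) :
    Integrable (G.bulkC g Y V) G.M.mu := by
  have m : g * G.SC.ELX Y * dot (G.SC.NX Y) V * algebraMap ℂ _ 2⁻¹ ∈ G.pkR K :=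
    mul_mem (mul_mem (mul_mem (mem_pkR.2 hg) (mem_EL n_mem (fun c => mem_pkR.2 (h.p0 c)) h.J_mem
      fun a b c => mem_pkR.2 (h.p2 a b c))) (mem_dot (mem_Nv n_mem h.J_mem)
        fun c => mem_pkR.2 (hV c))) (pw_bdd (C := ‖(2⁻¹ : ℂ)‖) fun _ _ => le_rfl)
  refine h.gau.intg (F := (fun p => (G.sq Y p)⁻¹) ^ 3 *
    (g * G.SC.ELX Y * dot (G.SC.NX Y) V * algebraMap ℂ G.SmC 2⁻¹).1)
    (((meas_sq Y).inv.pow_const 3).mul (G.contC _).measurable) (mul_mem (pow_mem h.isq 3) m)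
    (fun p hp => ?_) fun p => ?_
  · change _ * (g.1 p * _ * _ * _) = 0
    simp only [h0 p hp, zero_mul, mul_zero]
  · change _ = _ * ((G.sq Y p)⁻¹ ^ 3 * (g.1 p * (G.SC.ELX Y).1 p * (dot (G.SC.NX Y) V).1 p * 2⁻¹))
    rw [bulkC, dot_val (G.SC.NX Y)]; ring

theorem intg_fluxC (h0 : tsupport g.1 ⊆ K) (hg : ∀ a, G.PK K (G.SC.D a g))
    (hV : ∀ c, G.PK K (V c)) : Integrable (G.fluxC g Y V) G.M.mu := by
  have m : ∑ a, G.SC.D a g * dot (G.SC.WX Y a) V ∈ G.pkR K := sum_mem fun a _ =>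
    mul_mem (mem_pkR.2 (hg a)) (mem_dot (mem_Wv h.J_mem a) fun c => mem_pkR.2 (hV c))
  have e : ∀ p, (∑ a, G.SC.D a g * dot (G.SC.WX Y a) V).1 p =
      ∑ a, (G.SC.D a g).1 p * dot (val (G.SC.WX Y a) p) (val V p) := fun p => by
    rw [← Cj.ev_apply]
    simp only [map_mul, map_sum, map_dot, Cj.ev_apply]
    rfl
  refine h.gau.intg (F := (fun p => (G.sq Y p)⁻¹) * (∑ a, G.SC.D a g * dot (G.SC.WX Y a) V).1)
    ((meas_sq Y).inv.mul (G.contC _).measurable) (mul_mem h.isq m) (fun p hp => ?_) fun p => ?_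
  · simp only [Pi.mul_apply, e, G.D_zero_off fun k => hp (h0 k), zero_mul, Finset.sum_const_zero,
      mul_zero]
  · rw [fluxC, Pi.mul_apply, e]

theorem intg_fldC (h0 : ∀ p, p ∉ K → g.1 p = 0) (hg : G.PK K g) (hV : ∀ c, G.PK K (V c))
    (a : Fin 3) : Integrable (G.fldC g Y V a) G.M.mu := by
  have m : g * dot (G.SC.WX Y a) V ∈ G.pkR K :=
    mul_mem (mem_pkR.2 hg) (mem_dot (mem_Wv h.J_mem a) fun c => mem_pkR.2 (hV c))
  refine h.gau.intg (F := (fun p => (G.sq Y p)⁻¹) * (g * dot (G.SC.WX Y a) V).1)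
    ((meas_sq Y).inv.mul (G.contC _).measurable) (mul_mem h.isq m) (fun p hp => ?_) fun p => ?_
  · change _ * (g.1 p * _) = 0
    simp only [h0 p hp, zero_mul, mul_zero]
  · change _ = _ * ((G.sq Y p)⁻¹ * (g.1 p * (dot (G.SC.WX Y a) V).1 p))
    rw [fldC, dot_val (G.SC.WX Y a)]; ring

end TmK

variable {W : Type} [NormedAddCommGroup W] [NormedSpace ℂ W]

/-- a holomorphic family of weights `g` (supported in the closed set `K`) and complex surfaces -/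
structure NFam (G : Geo X) (K : Set X) (U : Set W) (g : W → G.SmC) (Y : W → Fin 3 → G.SmC) :
    Prop where
  cl : IsClosed K
  op : IsOpen U
  supp : ∀ z ∈ U, tsupport (g z).1 ⊆ K
  hg : ∀ p ∈ K, DifferentiableOn ℂ (fun z => (g z).1 p) U
  hY : ∀ p ∈ K, ∀ c, DifferentiableOn ℂ (fun z => (Y z c).1 p) U
  hJ : ∀ p ∈ K, ∀ a c, DifferentiableOn ℂ (fun z => (G.SC.D a (Y z c)).1 p) U
  bd : ∃ (C : ℝ) (b : ℕ), ∀ z ∈ U, ∀ p ∈ K, ‖(g z).1 p‖ ≤ C * (1 + G.S.x2.1 p) ^ b ∧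
    ∀ a c, ‖(G.SC.D a (Y z c)).1 p‖ ≤ C * (1 + G.S.x2.1 p) ^ b
  gau : ∃ δ C : ℝ, 0 < δ ∧ ∀ z ∈ U, ∀ p ∈ K, δ * G.S.x2.1 p - C ≤ ((dot (Y z) (Y z)).1 p).re
  slit : ∀ z ∈ U, ∀ p ∈ K, (G.SC.GX (Y z)).1 p ∈ Complex.slitPlane

namespace NFam

variable {U : Set W} {g : W → G.SmC} {Y : W → Fin 3 → G.SmC} (h : G.NFam K U g Y) {z : W} {p : X}
include h

omit [BorelSpace X] [T2Space X] [SecondCountableTopology X]

theorem zero (hz : z ∈ U) (hp : p ∉ K) : (g z).1 p = 0 :=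
  image_eq_zero_of_notMem_tsupport fun k => hp (h.supp z hz k)

theorem hd (hz : z ∈ U) (hp : p ∈ K) : HD ℂ (fun v => G.lagC (g v) (Y v) p) z fun w =>
    G.dlagC (g z) (Y z) (fderiv ℂ (fun v => (g v).1 p) z w)
      (fun c => fderiv ℂ (fun v => (Y v c).1 p) z w)
      (fun a c => fderiv ℂ (fun v => (G.SC.D a (Y v c)).1 p) z w) p :=
  have n := h.op.mem_nhds hz
  hd_lag ((h.hg p hp).differentiableAt n) (fun c => (h.hY p hp c).differentiableAt n)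
    (fun a c => (h.hJ p hp a c).differentiableAt n) (h.slit z hz p hp)

theorem pk_g (hz : z ∈ U) : G.PK K (g z) := by
  obtain ⟨C, b, hC⟩ := h.bd
  exact ⟨C, b, fun p hp => (hC z hz p hp).1⟩

theorem pk_J (hz : z ∈ U) (a c : Fin 3) : G.PK K (G.SC.D a (Y z c)) := by
  obtain ⟨C, b, hC⟩ := h.bd
  exact ⟨C, b, fun p hp => (hC z hz p hp).2 a c⟩

theorem gk (hz : z ∈ U) : G.GK K (Y z) := by
  obtain ⟨δ, C, h0, hC⟩ := h.gau
  exact ⟨δ, C, h0, hC z hz⟩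

/-- uniform Gaussian bound -/
theorem bound : ∃ δ B : ℝ, 0 < δ ∧ ∀ z ∈ U, ∀ p,
    ‖G.lagC (g z) (Y z) p‖ ≤ B * Real.exp (-(δ * G.S.x2.1 p)) := by
  obtain ⟨C, b, hC⟩ := h.bd
  obtain ⟨δ, C₀, hδ, hg⟩ := h.gau
  let A := Pw (fun q : W × X => G.S.x2.1 q.2) (U ×ˢ K)
  have m1 : (fun q : W × X => (g q.1).1 q.2) ∈ A := pw_of (C := C) (b := b) fun q hq => by
    rw [abs_of_nonneg (G.x2_nonneg _)]; exact (hC _ hq.1 _ hq.2).1
  have m2 : G2 (fun a (q : W × X) => Cj.nC G q.2 a) (fun a c q => JC (Y q.1) q.2 a c) ∈ A :=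
    mem_G2 (fun a => pw_bdd (C := 1) fun q _ => norm_nC _ a) fun a c =>
      pw_of (C := C) (b := b) fun q hq => by
        rw [abs_of_nonneg (G.x2_nonneg _)]; exact (hC _ hq.1 _ hq.2).2 a c
  obtain ⟨C', b', h0, h1⟩ := mul_mem m1 (pw_sqrt m2)
  obtain ⟨B, hB⟩ := gau_le hδ C₀ C' b' h0
  refine ⟨δ / 8, |B|, by positivity, fun z hz p => ?_⟩
  by_cases hp : p ∈ K
  · have e := h1 (z, p) ⟨hz, hp⟩
    have e2 := map_G2 (Pi.evalRingHom (fun _ : W × X => ℂ) (z, p))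
      (fun a (q : W × X) => Cj.nC G q.2 a) (fun a c q => JC (Y q.1) q.2 a c)
    simp only [Pi.evalRingHom_apply] at e2
    simp only [Pi.mul_apply, e2, abs_of_nonneg (G.x2_nonneg p)] at e
    have e3 : G.lagC (g z) (Y z) p =
        G.eX (Y z) p * ((g z).1 p * Complex.sqrt (G2 (Cj.nC G p) (JC (Y z) p))) := by
      rw [lagC, GX_val]; ring
    rw [e3, norm_mul, norm_eX]
    exact (mul_le_mul_of_nonneg_left e (by positivity)).trans
      ((hB _ _ (G.x2_nonneg p) (hg z hz p hp)).trans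
        (mul_le_mul_of_nonneg_right (le_abs_self _) (by positivity)))
  · rw [lagC, h.zero hz hp, zero_mul, norm_zero]; positivity

variable [BorelSpace X]

theorem dom : ∃ b : X → ℝ, Integrable b G.M.mu ∧
    (∀ z ∈ U, AEStronglyMeasurable (G.lagC (g z) (Y z)) G.M.mu) ∧
    (∀ᵐ p ∂G.M.mu, DifferentiableOn ℂ (fun z => G.lagC (g z) (Y z) p) U) ∧
    ∀ᵐ p ∂G.M.mu, ∀ z ∈ U, ‖G.lagC (g z) (Y z) p‖ ≤ b p := by
  obtain ⟨δ, B, hδ, hB⟩ := h.bound
  refine ⟨_, (G.intg_exp hδ).const_mul B, fun z _ => (meas_lagC _ _).aestronglyMeasurable,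
    Eventually.of_forall fun p => ?_, Eventually.of_forall fun p z hz => hB z hz p⟩
  by_cases hp : p ∈ K
  · exact fun z hz => (h.hd hz hp).diff.differentiableWithinAt
  · exact (differentiableOn_const (0 : ℂ)).congr fun z hz => by
      rw [lagC, h.zero hz hp, zero_mul]

theorem intg (hz : z ∈ U) : Integrable (G.lagC (g z) (Y z)) G.M.mu := by
  obtain ⟨b, h1, h2, -, h4⟩ := h.dom
  exact h1.mono' (h2 z hz) (h4.mono fun p hp => hp z hz)

/-- the weighted Gaussian area is holomorphic -/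
theorem diffOn : DifferentiableOn ℂ (fun z => G.actC (g z) (Y z)) U := by
  obtain ⟨b, h1, h2, h3, h4⟩ := h.dom
  exact H.int_diffOn h.op h1 h2 h3 h4

theorem norm_le : ∃ C : ℝ, ∀ z ∈ U, ‖G.actC (g z) (Y z)‖ ≤ C := by
  obtain ⟨b, h1, -, -, h4⟩ := h.dom
  exact ⟨_, fun z hz => norm_integral_le_of_norm_le h1 (h4.mono fun p hp => hp z hz)⟩

/-- derivative before integration by parts -/
theorem fderiv_dlag (hz : z ∈ U) (v : W) {g' : G.SmC} {V : Fin 3 → G.SmC}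
    (h0 : ∀ p, p ∉ K → g'.1 p = 0)
    (h1 : ∀ p ∈ K, fderiv ℂ (fun z => (g z).1 p) z v = g'.1 p)
    (h2 : ∀ p ∈ K, ∀ c, fderiv ℂ (fun z => (Y z c).1 p) z v = (V c).1 p)
    (h3 : ∀ p ∈ K, ∀ a c,
      fderiv ℂ (fun z => (G.SC.D a (Y z c)).1 p) z v = (G.SC.D a (V c)).1 p) :
    Integrable (fun p => G.dlagC (g z) (Y z) (g'.1 p) (val V p) (JC V p) p) G.M.mu ∧
    fderiv ℂ (fun z => G.actC (g z) (Y z)) z v =
      ∫ p, G.dlagC (g z) (Y z) (g'.1 p) (val V p) (JC V p) p ∂G.M.mu := by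
  obtain ⟨b, k1, k2, k3, k4⟩ := h.dom
  have e : (fun p => fderiv ℂ (fun z => G.lagC (g z) (Y z) p) z v) =
      fun p => G.dlagC (g z) (Y z) (g'.1 p) (val V p) (JC V p) p := funext fun p => by
    by_cases hp : p ∈ K
    · simp only [(h.hd hz hp).eq, h1 p hp, h2 p hp, h3 p hp]
      rfl
    · have e : (fun v => G.lagC (g v) (Y v) p) =ᶠ[𝓝 z] fun _ => 0 :=
        (h.op.eventually_mem hz).mono fun v hv => by simp only [lagC, h.zero hv hp, zero_mul]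
      simp only [e.fderiv_eq, dlagC, h.zero hz hp, h0 p hp]
      simp
  have := H.int_fderiv h.op k1 k2 k3 k4 hz v
  rwa [e] at this

variable [T2Space X] [SecondCountableTopology X]

/-- **FIRST VARIATION**, non-compact weights -/
theorem fderiv_eq (hz : z ∈ U) (v : W) (hT : G.TmK K (Y z)) (hD : ∀ a, G.PK K (G.SC.D a (g z)))
    {g' : G.SmC} {V : Fin 3 → G.SmC} (h0 : ∀ p, p ∉ K → g'.1 p = 0) (hg' : G.PK K g')
    (hV : ∀ c, G.PK K (V c))
    (h1 : ∀ p ∈ K, fderiv ℂ (fun z => (g z).1 p) z v = g'.1 p)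
    (h2 : ∀ p ∈ K, ∀ c, fderiv ℂ (fun z => (Y z c).1 p) z v = (V c).1 p)
    (h3 : ∀ p ∈ K, ∀ a c,
      fderiv ℂ (fun z => (G.SC.D a (Y z c)).1 p) z v = (G.SC.D a (V c)).1 p) :
    fderiv ℂ (fun z => G.actC (g z) (Y z)) z v = G.actC g' (Y z)
      + ∫ p, G.bulkC (g z) (Y z) V p ∂G.M.mu - ∫ p, G.fluxC (g z) (Y z) V p ∂G.M.mu := by
  obtain ⟨i1, e⟩ := h.fderiv_dlag hz v h0 h1 h2 h3
  have j1 := hT.intg_lagC h0 hg'
  have j2 := hT.intg_bulkC (fun p hp => h.zero hz hp) (h.pk_g hz) hV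
  have j3 := hT.intg_fluxC (h.supp z hz) hD hV
  rw [e, int_dlagN h.cl (h.supp z hz) h0 (h.slit z hz) i1 (by
      rw [funext (G.varC_eq (g z) g' (Y z) V)]; exact (j1.add j2).sub j3)
    (hT.intg_fldC (fun p hp => h.zero hz hp) (h.pk_g hz) hV)]
  simp only [varC_eq]
  rw [integral_sub (f := fun p => G.lagC g' (Y z) p + G.bulkC (g z) (Y z) V p) (j1.add j2) j3,
    integral_add j1 j2, actC]

end NFam

/-- one complex parameter -/
theorem NFam.hasDerivAt {U : Set ℂ} {g : ℂ → G.SmC} {Y : ℂ → Fin 3 → G.SmC} (h : G.NFam K U g Y)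
    {t : ℂ} (ht : t ∈ U) (hT : G.TmK K (Y t)) (hD : ∀ a, G.PK K (G.SC.D a (g t)))
    {g' : G.SmC} {V : Fin 3 → G.SmC} (h0 : ∀ p, p ∉ K → g'.1 p = 0) (hg' : G.PK K g')
    (hV : ∀ c, G.PK K (V c))
    (h1 : ∀ p ∈ K, HasDerivAt (fun z => (g z).1 p) (g'.1 p) t)
    (h2 : ∀ p ∈ K, ∀ c, HasDerivAt (fun z => (Y z c).1 p) ((V c).1 p) t)
    (h3 : ∀ p ∈ K, ∀ a c,
      HasDerivAt (fun z => (G.SC.D a (Y z c)).1 p) ((G.SC.D a (V c)).1 p) t) :
    HasDerivAt (fun z => G.actC (g z) (Y z)) (G.actC g' (Y t)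
      + ∫ p, G.bulkC (g t) (Y t) V p ∂G.M.mu - ∫ p, G.fluxC (g t) (Y t) V p ∂G.M.mu) t := by
  rw [← h.fderiv_eq ht 1 hT hD h0 hg' hV (fun p hp => (h1 p hp).deriv)
    (fun p hp c => (h2 p hp c).deriv) fun p hp a c => (h3 p hp a c).deriv]
  exact (h.diffOn.differentiableAt (h.op.mem_nhds ht)).hasDerivAt

end WS.Geo

end Crest.Agent.N250

end
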